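import Vale.Agent.P181.DGx.H514.Lit
import Vale.Agent.P181.DGx.H831.Trans

set_option autoImplicit false

/-!
# P181, DG, D4: the rank and nullity step

`disT_of`: the inequality `DisT` from a linear map `Φ` of `PKT (k :: rho)` with `t + 1` small columns
to `PKT (A + rho)` with `t + D + 1` small columns which is injective on the graded pieces.
-/

open MvPolynomial

namespace Vale.Agent.P181.DG4.H237

open Vale.Agent.P181.T4 (HW)
open Vale.Agent.P181.DG
open Vale.Agent.P181.DG.H514 (KerT KerStmt)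
open Vale.Agent.P181.DGx.H831 (finiteDimensional_PKT)

/-- Rank and nullity for a map which is injective modulo `K2`. -/
lemma rank_le {V W : Type*} [AddCommGroup V] [Module ℂ V] [AddCommGroup W] [Module ℂ W]
    (Φ : V →ₗ[ℂ] W) (V1 K1 : Submodule ℂ V) (V2 K2 : Submodule ℂ W)
    [FiniteDimensional ℂ V1] [FiniteDimensional ℂ K1] [FiniteDimensional ℂ V2] (hK2 : K2 ≤ V2)
    (h : ∀ f ∈ V1, Φ f ∈ V2 ∧ (Φ f ∈ K2 → f ∈ K1)) :
    Module.finrank ℂ V1 + Module.finrank ℂ K2 ≤ Module.finrank ℂ K1 + Module.finrank ℂ V2 := by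
  let ψ : V1 →ₗ[ℂ] W ⧸ K2 := K2.mkQ ∘ₗ Φ ∘ₗ V1.subtype
  let φ : V2 →ₗ[ℂ] W ⧸ K2 := K2.mkQ ∘ₗ V2.subtype
  have h1 := LinearMap.finrank_range_add_finrank_ker ψ
  have h2 := LinearMap.finrank_range_add_finrank_ker φ
  have h3 : Module.finrank ℂ (LinearMap.ker φ) = Module.finrank ℂ K2 := by
    have h4 : LinearMap.ker φ = K2.comap V2.subtype := by
      ext x
      simp only [φ, LinearMap.mem_ker, LinearMap.comp_apply, Submodule.mkQ_apply,
        Submodule.Quotient.mk_eq_zero, Submodule.mem_comap]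
    rw [h4]
    exact (Submodule.comapSubtypeEquivOfLe hK2).finrank_eq
  have h5 : Module.finrank ℂ (LinearMap.ker ψ) ≤ Module.finrank ℂ K1 := by
    have h6 : ∀ x : LinearMap.ker ψ, ((x : V1) : V) ∈ K1 := by
      rintro ⟨x, hx⟩
      have h7 : Φ (x : V) ∈ K2 := by
        simpa only [ψ, LinearMap.mem_ker, LinearMap.comp_apply, Submodule.mkQ_apply,
          Submodule.Quotient.mk_eq_zero, Submodule.subtype_apply] using hx
      exact (h _ x.2).2 h7
    refine LinearMap.finrank_le_finrank_of_injective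
      (f := LinearMap.codRestrict K1 (V1.subtype ∘ₗ (LinearMap.ker ψ).subtype) h6) ?_
    intro x y hxy
    have h8 := congrArg Subtype.val hxy
    exact Subtype.ext (Subtype.ext h8)
  have h9 : Module.finrank ℂ (LinearMap.range ψ) ≤ Module.finrank ℂ (LinearMap.range φ) := by
    refine Submodule.finrank_mono ?_
    rintro _ ⟨x, rfl⟩
    exact ⟨⟨Φ x, (h _ x.2).1⟩, rfl⟩
  omega

/-- The map to be constructed: linear, into `PKT`, injective on the graded pieces. -/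
def MapStmt : Prop := ∀ (m S : ℕ) (mu : Fin m → ℕ) (rho A : Multiset ℕ) (k D t : ℕ), 4 ≤ S →
  0 < k → A.Nodup → (∀ x ∈ A, S ≤ x ∧ x ∉ rho ∧ x ≠ k) → k = A.sum + D →
  (D = 0 ∨ 2 ≤ D ∧ t + 1 ≤ A.sum) →
  ∃ (σ τ : Type) (_ : Fintype σ) (_ : Fintype τ) (d : σ → ℕ) (e : τ → ℕ),
    Finset.univ.val.map d = k ::ₘ rho ∧ Finset.univ.val.map e = A + rho ∧
    ∃ Φ : MvPolynomial (Fin m × (σ ⊕ Fin (t + 1))) ℂ →ₗ[ℂ]
        MvPolynomial (Fin m × (τ ⊕ Fin (t + D + 1))) ℂ,
      ∀ f ∈ PKT m S σ d (t + 1) mu, Φ f ∈ PKT m S τ e (t + D + 1) mu ∧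
        (Φ f ∈ KerT m S τ e (t + D) mu → f ∈ KerT m S σ d t mu)

lemma kerT_le (m S : ℕ) (σ : Type) [Fintype σ] (d : σ → ℕ) (t : ℕ) (mu : Fin m → ℕ) :
    KerT m S σ d t mu ≤ PKT m S σ d (t + 1) mu := fun _ h => h.1

/-- **D4 from the map.** -/
theorem disT_of (hK : KerStmt) (hT : TransT) (hM : MapStmt) : DisT := by
  intro m S mu rho A k D t hS hk hA hAx hsum hD
  obtain ⟨σ, τ, _, _, d, e, hd, he, Φ, hΦ⟩ := hM m S mu rho A k D t hS hk hA hAx hsum hD
  have : FiniteDimensional ℂ (KerT m S σ d t mu) :=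
    Submodule.finiteDimensional_of_le (kerT_le m S σ d t mu)
  have h1 := rank_le Φ (PKT m S σ d (t + 1) mu) (KerT m S σ d t mu) (PKT m S τ e (t + D + 1) mu)
    (KerT m S τ e (t + D) mu) (kerT_le m S τ e (t + D) mu) hΦ
  rw [hK m S σ d t mu (by omega), hK m S τ e (t + D) mu (by omega), hT m S σ d (t + 1) mu,
    hT m S σ d t mu, hT m S τ e (t + D) mu, hT m S τ e (t + D + 1) mu, hd, he] at h1
  rw [Nat.add_right_comm t 1 D]
  exact h1

end Vale.Agent.P181.DG4.H237
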