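import Vale.Agent.P181.DGz.H547.Dis0
import Vale.Agent.P181.DGx.H514.Op
import Vale.Agent.P181.DG4.H237.Rank

set_option autoImplicit false

/-!
# P181, DG, D4: the assembly

`disT_of_blocks : KerStmt → AdQStmt → NFQStmt → DisT`.
-/

open MvPolynomial

namespace Vale.Agent.P181.DG4.H237

open Vale.Agent.P181.T4 (HW)
open Vale.Agent.P181.DG
open Vale.Agent.P181.DG.H514 (KerT KerStmt Ad NF AdQStmt NFQStmt symQ)
open Vale.Agent.P181.DGx.H831 (finiteDimensional_PKT)
open Vale.Agent.P181.DG0 (mem_PKT)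
open Vale.Agent.P181.DG4a
open Vale.Agent.P181.SZR3
open Vale.Agent.P181.SZT0 (rc inj_pr rc_inj coeff_rc rc_mem_HW)
open Vale.Agent.P181.DGz.H547

section map

variable {m n t : ℕ} {β : Type} [Fintype β] [DecidableEq β]

variable {S : ℕ} {d1 : Unit ⊕ β → ℕ} {d2 : Option (Fin n) ⊕ β → ℕ} {mu : Fin m → ℕ}

/-- the image is in the target -/
lemma Ph_mem' {w : Fin n → ℕ} (hd0 : d1 (Sum.inl ()) = d2 (Sum.inl none) + ∑ q, w q)
    (hdr : ∀ r, d1 (Sum.inr r) = d2 (Sum.inr r)) (hdw : ∀ q, d2 (Sum.inl (some q)) = w q)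
    (hG : ∀ e : Equiv.Perm (Option (Fin n) ⊕ β), (∀ j, d2 (e j) = d2 j) →
      ∀ j : Option (Fin n), e (Sum.inl j) = Sum.inl j)
    {f : MvPolynomial (Fin m × ((Unit ⊕ β) ⊕ Fin t)) ℂ}
    (hf : Ad S {e : Equiv.Perm (Unit ⊕ β) | e (Sum.inl ()) = Sum.inl () ∧
      ∀ j, d1 (e j) = d1 j} d1 t mu f) :
    Ph m n t β w f ∈ PKT m S (Option (Fin n) ⊕ β) d2 t mu := by
  rw [mem_PKT]
  obtain ⟨h1, h2, h3, h4⟩ := hf
  refine ⟨?_, ?_, ?_, ?_⟩
  · exact mem_HW_polL _ _ ((rc_mem_HW io_inj).2 h1)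
  · intro v hv
    obtain ⟨u, hu, h5, h6, h7, h8⟩ := coeff_Ph hv
    obtain ⟨h9, h10⟩ := h2 u hu
    constructor
    · rintro ((_ | q) | r)
      · have h11 := h9 (Sum.inl ())
        rw [hd0] at h11
        have h12 : cdeg u (Sum.inl (Sum.inl ())) = d2 (Sum.inl none) + ∑ q, w q := h11
        have h13 : cdeg v (c0 n t β) = d2 (Sum.inl none) := by omega
        exact h13
      · rw [hdw]
        exact h6 q
      · rw [← hdr]
        exact (h7 r).trans (h9 (Sum.inr r))
    · intro s
      exact lt_of_eq_of_lt (h8 s) (h10 s)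
  · intro e s he
    have hG' := hG e he
    have h5 : Set.MapsTo e (Set.range Sum.inl) (Set.range Sum.inl) := by
      rintro _ ⟨j, rfl⟩
      exact ⟨j, (hG' j).symm⟩
    obtain ⟨⟨e1, e2⟩, h6⟩ := Equiv.Perm.mem_sumCongrHom_range_of_perm_mapsTo_inl h5
    have h7 : ∀ r, e (Sum.inr r) = Sum.inr (e2 r) := by
      intro r
      rw [← h6]
      rfl
    have h8 : Function.Injective (Sum.map e s : (Option (Fin n) ⊕ β) ⊕ Fin t → _) :=
      Function.Injective.sumMap e.injective s.injective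
    have h9 := rn_polL (m := m) (Sum.map e s) (c0 n t β) (fun x hx => h8 hx) (LQ n t β w)
      (rn (io n t β) f)
    have h10 : (LQ n t β w).map (Sum.map e s) = LQ n t β w := by
      conv_rhs => rw [← List.map_id (LQ n t β w)]
      apply List.map_congr_left
      intro y hy
      obtain ⟨q, _, rfl⟩ := mem_LL hy
      show Sum.inl (e (Sum.inl (some q))) = _
      rw [hG']
      rfl
    have h11 : (Sum.map e s (c0 n t β) : (Option (Fin n) ⊕ β) ⊕ Fin t) = c0 n t β := by
      show Sum.inl (e (Sum.inl none)) = _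
      rw [hG']
      rfl
    have h12 : rn (m := m) (Sum.map e s) (rn (io n t β) f) = rn (io n t β) f := by
      have h13 := h3 (Equiv.sumCongr (Equiv.refl Unit) e2) ⟨rfl, by
        rintro (⟨⟩ | r)
        · rfl
        · show d1 (Sum.inr (e2 r)) = _
          rw [hdr, hdr, ← h7, he]⟩ s
      have h14 : rn (m := m) (Sum.map (Equiv.sumCongr (Equiv.refl Unit) e2) s) f = f := h13
      conv_rhs => rw [← h14]
      rw [rn_rn, rn_rn]
      congr 2
      funext y
      rcases y with (⟨⟩ | r) | s'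
      · show Sum.inl (e (Sum.inl none)) = _
        rw [hG']
        rfl
      · show Sum.inl (e (Sum.inr r)) = _
        rw [h7]
        rfl
      · rfl
    rw [h10, h11, h12] at h9
    exact h9
  · intro i
    have h5 : ∀ j : Fin t, pderiv (i, (Sum.inr j : (Option (Fin n) ⊕ β) ⊕ Fin t))
        (Ph m n t β w f) = Ph m n t β w (pderiv (i, Sum.inr j) f) := by
      intro j
      rw [Ph_apply, pderiv_polL]
      · rw [Ph_apply]
        congr 1
        exact pderiv_rename (inj_pr io_inj) (i, Sum.inr j) f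
      · intro h
        obtain ⟨q, _, h6⟩ := mem_LL h
        exact absurd h6 (by simp [gg])
    rw [Finset.sum_congr rfl fun j _ => h5 j, ← map_sum, h4 i, map_zero]

/-- the graded injectivity of the splitting -/
lemma Ph_ker' {w : Fin n → ℕ} {N : ℕ} (hN : ∑ q, w q ≤ N)
    {f : MvPolynomial (Fin m × ((Unit ⊕ β) ⊕ Fin t)) ℂ}
    (hf : ∀ v, coeff v f ≠ 0 → cdeg v (Sum.inl (Sum.inl ())) = N)
    (h : NF (Ph m n t β w f)) : NF f := by
  classical
  intro v hv
  by_contra hno
  push Not at hno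
  have hv1 := hf v hv
  let d' : (Option (Fin n) ⊕ β) ⊕ Fin t → ℕ := fun
    | .inl (.inl none) => N - ∑ q, w q
    | .inl (.inl (some q)) => w q
    | .inl (.inr r) => cdeg v (.inl (.inr r))
    | .inr s => cdeg v (.inr s)
  have h1 : cp d' (Ph m n t β w f) = Ph m n t β w (cp (cdeg v) f) := by
    apply cp_comm
    intro g v' hv'
    obtain ⟨u, hu, h5, h6, h7, h8⟩ := coeff_Ph hv'
    refine ⟨u, hu, ?_⟩
    constructor
    · intro h9
      funext y
      rcases y with (⟨⟩ | r) | s
      · rw [hv1, ← h5, h9]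
        show N - ∑ q, w q + ∑ q, w q = N
        omega
      · rw [← h7, h9]
      · rw [← h8, h9]
    · intro h9
      funext y
      rcases y with ((_ | q) | r) | s
      · have h10 : cdeg v' (c0 n t β) = N - ∑ q, w q := by
          rw [h9, hv1] at h5
          omega
        exact h10
      · exact h6 q
      · rw [h7, h9]
      · rw [h8, h9]
  have h2 : cp d' (Ph m n t β w f) = 0 := by
    apply MvPolynomial.ext
    intro v'
    rw [coeff_zero]
    by_contra hv'
    obtain ⟨h3, h4⟩ := cdeg_of_coeff_cp hv'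
    obtain ⟨j, hj⟩ := h v' h4
    have h5 : cdeg v' (Sum.inr j) = cdeg v (Sum.inr j) := by rw [h3]
    exact hno j (h5.symm.trans hj)
  rw [h2] at h1
  have h3 : cp (cdeg v) f = 0 := by
    refine Ph_inj (N := N) hN ?_ h1.symm
    intro u hu
    rw [(cdeg_of_coeff_cp hu).1]
    exact hv1
  apply hv
  have h4 := congrArg (coeff v) h3
  rw [coeff_cp, if_pos rfl, coeff_zero] at h4
  exact h4

end map

/-- Rank and nullity, from `t + 1` to `N = M + 1` small columns. -/
lemma core (hK : KerStmt) {m S : ℕ} (hS : 1 ≤ S) (mu : Fin m → ℕ) {σ τ : Type} [Fintype σ]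
    [Fintype τ] (d : σ → ℕ) (e : τ → ℕ) (t N M : ℕ) (hN : N = M + 1)
    (Φ : MvPolynomial (Fin m × (σ ⊕ Fin (t + 1))) ℂ →ₗ[ℂ]
      MvPolynomial (Fin m × (τ ⊕ Fin N)) ℂ)
    (hΦ : ∀ f ∈ PKT m S σ d (t + 1) mu, Φ f ∈ PKT m S τ e N mu ∧ (NF (Φ f) → NF f)) :
    Module.finrank ℂ (PKT m S σ d (t + 1) mu) + Module.finrank ℂ (PKT m S τ e M mu) ≤
      Module.finrank ℂ (PKT m S σ d t mu) + Module.finrank ℂ (PKT m S τ e N mu) := by
  subst hN
  have : FiniteDimensional ℂ (KerT m S σ d t mu) :=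
    Submodule.finiteDimensional_of_le (kerT_le m S σ d t mu)
  have h1 := rank_le Φ (PKT m S σ d (t + 1) mu) (KerT m S σ d t mu) (PKT m S τ e (M + 1) mu)
    (KerT m S τ e M mu) (kerT_le m S τ e M mu)
    (fun f hf => ⟨(hΦ f hf).1, fun h => ⟨hf, (hΦ f hf).2 h.2⟩⟩)
  rw [hK m S σ d t mu hS, hK m S τ e M mu hS] at h1
  exact h1

/-- **D4 from the blocks.** -/
theorem disT_of_blocks (hK : KerStmt) (hQ : AdQStmt) (hN : NFQStmt) : DisT := by
  classical
  intro m S mu rho A k D t hS hk hA hA2 hkA hD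
  rcases hD with rfl | ⟨hD2, htA⟩
  · exact dis0 hK m S mu rho A k t hS hk hA hA2 hkA
  obtain ⟨n, rfl⟩ : ∃ n, D = n + 2 := ⟨D - 2, by omega⟩
  obtain ⟨x, hx⟩ : ∃ x, x ∈ A := by
    apply Multiset.exists_mem_of_ne_zero
    rintro rfl
    rw [Multiset.sum_zero] at htA
    omega
  obtain ⟨U, rfl⟩ := Multiset.exists_cons_of_mem hx
  rw [Multiset.nodup_cons] at hA
  rw [Multiset.sum_cons] at hkA htA
  have hxr : x ∉ rho := (hA2 x hx).2.1
  have hUr : ∀ y ∈ U, y ∉ rho := fun y hy => (hA2 y (Multiset.mem_cons_of_mem hy)).2.1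
  have hUx : ∀ y ∈ U, y ≠ x := fun y hy h => hA.1 (h ▸ hy)
  let σ := Option (Fin U.toList.length) ⊕ Fin rho.toList.length
  have hUnd : U.toList.Nodup := by
    rw [← Multiset.coe_nodup, Multiset.coe_toList]
    exact hA.2
  have hG : ∀ e : Equiv.Perm σ, (∀ j, d2 U rho x (e j) = d2 U rho x j) →
      ∀ j : Option (Fin U.toList.length), e (.inl j) = .inl j := by
    intro e he j
    have h := he (.inl j)
    rcases j with _ | q
    · rcases hj : e (.inl none) with (_ | q') | r
      · rfl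
      · rw [hj] at h
        exact absurd h (hUx _ (get_mem U q'))
      · rw [hj] at h
        have h' : rho.toList.get r = x := h
        exact absurd (h' ▸ get_mem rho r) hxr
    · rcases hj : e (.inl (some q)) with (_ | q') | r
      · rw [hj] at h
        exact absurd h.symm (hUx _ (get_mem U q))
      · rw [hj] at h
        have h' : q' = q := List.nodup_iff_injective_get.1 hUnd h
        rw [h']
      · rw [hj] at h
        have h' : rho.toList.get r = U.toList.get q := h
        exact absurd (h' ▸ get_mem rho r) (hUr _ (get_mem U q))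
  have hsum : ∑ q : Fin U.toList.length, U.toList.get q = U.sum := by
    have h1 : ∑ q : Fin U.toList.length, U.toList.get q =
        ((Finset.univ : Finset (Fin U.toList.length)).val.map (fun j => U.toList.get j)).sum :=
      rfl
    rw [h1, map_univ_toList]
  have hd0 : e1 U rho x (Sum.inl ()) = d2 U rho x (Sum.inl none) +
      ∑ q : Fin U.toList.length, U.toList.get q := by
    rw [hsum]
    rfl
  let L := Unit ⊕ Fin rho.toList.length
  let c : L := Sum.inl ()
  let δ : L → ℕ := e1 U rho (x + (n + 2))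
  have hδc : δ c = x + (n + 2) + U.sum := rfl
  have hδ' : (fun j => if j = c then δ c - (n + 2) else δ j) = e1 U rho x := by
    funext j
    rcases j with ⟨⟩ | r
    · show (if c = c then δ c - (n + 2) else _) = x + U.sum
      rw [if_pos rfl, hδc]
      omega
    · rw [if_neg (by simp [c])]
      rfl
  let G : Set (Equiv.Perm L) := {e | e (Sum.inl ()) = Sum.inl () ∧
    ∀ j, e1 U rho x (e j) = e1 U rho x j}
  have hAd : ∀ f ∈ PKT m S L δ (t + 1) mu, Ad S G δ (t + 1) mu f := by
    intro f hf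
    obtain ⟨h1, h2, h3, h4⟩ := mem_PKT.1 hf
    refine ⟨h1, h2, fun e he s => h3 e s fun j => ?_, h4⟩
    rcases j with ⟨⟩ | r
    · rw [he.1]
    · rcases hj : e (Sum.inr r) with ⟨⟩ | r'
      · have h5 : e (Sum.inr r) = e (Sum.inl ()) := by rw [hj, he.1]
        exact absurd (e.injective h5) (by simp)
      · have h5 := he.2 (Sum.inr r)
        rw [hj] at h5
        exact h5
  have hmap : ∀ f ∈ PKT m S L δ (t + 1) mu,
      Ph m U.toList.length (t + 1 + (n + 2)) (Fin rho.toList.length)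
        (fun q => U.toList.get q) (symQ (t + 1) n c f) ∈
          PKT m S σ (d2 U rho x) (t + 1 + (n + 2)) mu ∧
      (NF (Ph m U.toList.length (t + 1 + (n + 2)) (Fin rho.toList.length)
        (fun q => U.toList.get q) (symQ (t + 1) n c f)) → NF f) := by
    intro f hf
    have h1 := hQ m S L G δ (t + 1) n mu c hS (fun e he => he.1) (by rw [hδc]; omega) f (hAd f hf)
    rw [hδ'] at h1
    refine ⟨Ph_mem' hd0 (fun r => rfl) (fun q => rfl) hG h1, fun h => ?_⟩
    have h2 : NF (symQ (t + 1) n c f) := by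
      refine Ph_ker' (N := x + U.sum) (by rw [hsum]; omega) (fun v hv => ?_) h
      exact (h1.2.1 v hv).1 (Sum.inl ())
    refine hN m L δ (t + 1) n c (by rw [hδc]; omega) f (fun v hv => ?_) (fun s => ?_) h2
    · exact ((mem_PKT.1 hf).2.1 v hv).1
    · exact (mem_PKT.1 hf).2.2.1 (Equiv.refl L) s (fun j => rfl)
  have h1 := core hK (by omega) mu δ (d2 U rho x) t (t + 1 + (n + 2)) (t + (n + 2)) (by omega)
    (Ph m U.toList.length (t + 1 + (n + 2)) (Fin rho.toList.length)
        (fun q => U.toList.get q) ∘ₗ symQ (t + 1) n c) hmap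
  rw [DG0.transT, DG0.transT, DG0.transT, DG0.transT, map_e1, map_d2] at h1
  have h2 : k = x + (n + 2) + U.sum := by omega
  rw [h2]
  exact h1

end Vale.Agent.P181.DG4.H237
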